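import Mathlib

open Polynomial Finset

namespace Vale.Agent.P123

/-- geometric-sum cofactor of `X - C a` in `X ^ n - C (a ^ n)` -/
noncomputable def cof (n : ℕ) (a : ℂ) : ℂ[X] :=
  ∑ i ∈ range n, X ^ i * (C a) ^ (n - 1 - i)

lemma sub_mul_cof (n : ℕ) (a : ℂ) : (X - C a) * cof n a = X ^ n - C (a ^ n) := by
  unfold cof
  rw [(Commute.all (X : ℂ[X]) (C a)).mul_geom_sum₂, C_pow]

lemma sum_pow_root {ω : ℂ} {n : ℕ} (hω : IsPrimitiveRoot ω n) {m : ℕ} (hm0 : 0 < m) (hm : m < n) :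
    ∑ k ∈ range n, (ω ^ m) ^ k = 0 := by
  have h1 : ω ^ m ≠ 1 := hω.pow_ne_one_of_pos_of_lt hm0.ne' hm
  have h2 : (ω ^ m - 1) * ∑ k ∈ range n, (ω ^ m) ^ k = 0 := by
    rw [mul_geom_sum, ← pow_mul, mul_comm, pow_mul, hω.pow_eq_one, one_pow, sub_self]
  rcases mul_eq_zero.mp h2 with h | h
  · exact absurd (sub_eq_zero.mp h) h1
  · exact h

lemma sum_cof {ω : ℂ} {n : ℕ} (hn : 0 < n) (hω : IsPrimitiveRoot ω n) (μ : ℂ) :
    ∑ k ∈ range n, C (ω ^ k) * cof n (μ * ω ^ k) = C ((n : ℂ) * μ ^ (n - 1)) := by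
  unfold cof
  simp_rw [Finset.mul_sum]
  rw [Finset.sum_comm]
  have key : ∀ i ∈ range n, ∑ k ∈ range n, C (ω ^ k) * (X ^ i * C (μ * ω ^ k) ^ (n - 1 - i))
      = X ^ i * C (μ ^ (n - 1 - i) * ∑ k ∈ range n, (ω ^ (n - i)) ^ k) := by
    intro i hi
    have hi' : i < n := Finset.mem_range.mp hi
    rw [Finset.mul_sum, map_sum, Finset.mul_sum]
    refine Finset.sum_congr rfl fun k _ => ?_
    rw [← C_pow, mul_left_comm, ← C_mul]
    congr 2
    rw [mul_pow, ← pow_mul, ← pow_mul]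
    have : (n - i) * k = k + k * (n - 1 - i) := by
      have : n - i = 1 + (n - 1 - i) := by omega
      rw [this]; ring
    rw [this, pow_add]; ring
  rw [Finset.sum_congr rfl key]
  obtain ⟨m, rfl⟩ : ∃ m, n = m + 1 := ⟨n - 1, by omega⟩
  rw [Finset.sum_range_succ']
  have hz : ∀ i ∈ range m, (X : ℂ[X]) ^ (i + 1) * C (μ ^ (m + 1 - 1 - (i + 1)) *
      ∑ k ∈ range (m + 1), (ω ^ (m + 1 - (i + 1))) ^ k) = 0 := by
    intro i hi
    have hi' : i < m := Finset.mem_range.mp hi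
    rw [sum_pow_root hω (by omega) (by omega)]
    simp
  rw [Finset.sum_eq_zero hz]
  simp [hω.pow_eq_one]
  ring

end Vale.Agent.P123
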