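import Vale.Agent.P123.Core

open Polynomial Finset

namespace Vale.Agent.P123

variable {H : Type*} [NormedAddCommGroup H] [InnerProductSpace ℂ H]

lemma term_nonpos (B : H →L[ℂ] H) (K : Set ℂ)
    (hW : ∀ x : H, ‖x‖ = 1 → inner ℂ x (B x) ∈ K)
    (ρ : ℂ) (hρ : ∀ z ∈ K, ρ * z ∈ K) (β μ : ℂ)
    (htan : ∀ κ ∈ K, (β * (κ - μ)).re ≤ 0) (v : H) :
    (β * (ρ * inner ℂ v (B v) - μ * ((‖v‖ : ℂ) ^ 2))).re ≤ 0 := by
  by_cases hv : v = 0
  · simp [hv]
  · have hn : ‖v‖ ≠ 0 := norm_ne_zero_iff.mpr hv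
    set e : H := ((‖v‖ : ℂ)⁻¹) • v with he
    have he1 : ‖e‖ = 1 := by
      rw [he, norm_smul, norm_inv, Complex.norm_real, norm_norm, inv_mul_cancel₀ hn]
    have hve : v = (‖v‖ : ℂ) • e := by
      rw [he, smul_smul, mul_inv_cancel₀ (by exact_mod_cast hn), one_smul]
    have hin : inner ℂ v (B v) = ((‖v‖ : ℂ) ^ 2) * inner ℂ e (B e) := by
      conv_lhs => rw [hve]
      rw [map_smul, inner_smul_left, inner_smul_right, Complex.conj_ofReal]
      ring
    have hk := htan _ (hρ _ (hW e he1))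
    rw [hin]
    have : β * (ρ * (((‖v‖ : ℂ) ^ 2) * inner ℂ e (B e)) - μ * ((‖v‖ : ℂ) ^ 2))
        = ((‖v‖ ^ 2 : ℝ) : ℂ) * (β * (ρ * inner ℂ e (B e) - μ)) := by
      push_cast; ring
    rw [this, Complex.re_ofReal_mul]
    exact mul_nonpos_of_nonneg_of_nonpos (by positivity) hk

lemma aeval_cof (B : H →L[ℂ] H) (n : ℕ) (a : ℂ) (x : H) :
    B ((aeval B (cof n a)) x) - a • ((aeval B (cof n a)) x) = (B ^ n) x - (a ^ n) • x := by
  have := congrArg (fun p => (aeval B p) x) (sub_mul_cof n a)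
  beta_reduce at this
  rw [map_mul, map_sub, map_sub, map_pow, aeval_X, aeval_C, aeval_C] at this
  simpa [Algebra.algebraMap_eq_smul_one, sub_smul] using this

lemma core {n : ℕ} (hn : 0 < n) {ω : ℂ} (hω : IsPrimitiveRoot ω n) (B : H →L[ℂ] H) (K : Set ℂ)
    (hW : ∀ x : H, ‖x‖ = 1 → inner ℂ x (B x) ∈ K)
    (hrot : ∀ z ∈ K, ω * z ∈ K)
    (μ u : ℂ) (hμ : μ ^ (n - 1) ≠ 0)
    (htan : ∀ κ ∈ K, (u * μ ^ (n - 1) * (κ - μ)).re ≤ 0)
    (x : H) (hx : ‖x‖ = 1) :
    (u * inner ℂ x ((B ^ n) x)).re ≤ (u * μ ^ n).re := by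
  classical
  set v : ℕ → H := fun k => (aeval B (cof n (μ * ω ^ k))) x with hv
  set D : H := (B ^ n) x - (μ ^ n) • x with hD
  have hωn : ω ^ n = 1 := hω.pow_eq_one
  have hnorm : ‖ω‖ = 1 := Complex.norm_eq_one_of_pow_eq_one hωn hn.ne'
  have h1 : ∀ k, B (v k) - (μ * ω ^ k) • (v k) = D := by
    intro k
    have hpow : (μ * ω ^ k) ^ n = μ ^ n := by
      rw [mul_pow, ← pow_mul, mul_comm k n, pow_mul, hωn, one_pow, mul_one]
    rw [hv, hD, ← hpow]
    exact aeval_cof B n _ x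
  have h2 : ∑ k ∈ range n, (ω ^ k) • v k = ((n : ℂ) * μ ^ (n - 1)) • x := by
    have := congrArg (fun p => (aeval B p) x) (sum_cof hn hω μ)
    simp only [map_sum, map_mul, aeval_C, _root_.sum_apply] at this
    rw [← map_mul, Algebra.algebraMap_eq_smul_one] at this
    simp only [Algebra.algebraMap_eq_smul_one, smul_mul_assoc, one_mul,
      smul_apply, one_apply_eq_self] at this
    exact this
  -- rotation by powers
  have hrotpow : ∀ j : ℕ, ∀ z ∈ K, ω ^ j * z ∈ K := by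
    intro j
    induction j with
    | zero => intro z hz; simpa using hz
    | succ j ih => intro z hz; rw [pow_succ', mul_assoc]; exact hrot _ (ih z hz)
  have hconj : ∀ k ∈ range n, (starRingEnd ℂ) (ω ^ k) = ω ^ (n - k) := by
    intro k hk
    have hk' : k < n := Finset.mem_range.mp hk
    have hne : ω ^ k ≠ 0 := pow_ne_zero _ (by intro h; rw [h] at hnorm; simp at hnorm)
    have e1 : (starRingEnd ℂ) (ω ^ k) * ω ^ k = 1 := by
      rw [mul_comm, Complex.mul_conj, Complex.normSq_eq_norm_sq, norm_pow, hnorm]; simp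
    have e2 : ω ^ (n - k) * ω ^ k = 1 := by
      rw [← pow_add, Nat.sub_add_cancel hk'.le, hωn]
    exact mul_right_cancel₀ hne (e1.trans e2.symm)
  -- the main identity
  have h3 : (starRingEnd ℂ) ((n : ℂ) * μ ^ (n - 1)) * inner ℂ x D
      = ∑ k ∈ range n, ((starRingEnd ℂ) (ω ^ k) * inner ℂ (v k) (B (v k))
          - μ * ((‖v k‖ : ℂ) ^ 2)) := by
    rw [← inner_smul_left, ← h2, sum_inner]
    refine Finset.sum_congr rfl fun k hk => ?_
    rw [inner_smul_left, ← h1 k, inner_sub_right, inner_smul_right, inner_self_eq_norm_sq_to_K]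
    have e1 : (starRingEnd ℂ) (ω ^ k) * ω ^ k = 1 := by
      rw [mul_comm, Complex.mul_conj, Complex.normSq_eq_norm_sq, norm_pow, hnorm]; simp
    have : (starRingEnd ℂ) (ω ^ k) * (μ * ω ^ k * ((‖v k‖ : ℂ) ^ 2))
        = ((starRingEnd ℂ) (ω ^ k) * ω ^ k) * (μ * ((‖v k‖ : ℂ) ^ 2)) := by ring
    rw [mul_sub]
    simp only [Complex.coe_algebraMap] at *
    rw [this, e1, one_mul]
  have h4 : (u * μ ^ (n - 1) * ((starRingEnd ℂ) ((n : ℂ) * μ ^ (n - 1)) * inner ℂ x D)).re ≤ 0 := by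
    rw [h3, Finset.mul_sum, Complex.re_sum]
    refine Finset.sum_nonpos fun k hk => ?_
    rw [hconj k hk]
    exact term_nonpos B K hW _ (hrotpow _) _ _ htan _
  have h5 : u * μ ^ (n - 1) * ((starRingEnd ℂ) ((n : ℂ) * μ ^ (n - 1)) * inner ℂ x D)
      = (((n : ℝ) * Complex.normSq (μ ^ (n - 1)) : ℝ) : ℂ) * (u * inner ℂ x D) := by
    rw [map_mul, Complex.conj_natCast]
    have := Complex.mul_conj (μ ^ (n - 1))
    push_cast
    rw [← this]; ring
  rw [h5, Complex.re_ofReal_mul] at h4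
  have hpos : 0 < (n : ℝ) * Complex.normSq (μ ^ (n - 1)) :=
    mul_pos (by exact_mod_cast hn) (Complex.normSq_pos.mpr hμ)
  have h6 : (u * inner ℂ x D).re ≤ 0 := by
    by_contra hcon
    rw [not_le] at hcon
    have := mul_pos hpos hcon
    linarith
  have h7 : inner ℂ x D = inner ℂ x ((B ^ n) x) - μ ^ n := by
    rw [hD, inner_sub_right, inner_smul_right, inner_self_eq_norm_sq_to_K, hx]; simp
  rw [h7, mul_sub, Complex.sub_re] at h6
  linarith

end Vale.Agent.P123
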