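import Vale.Agent.P123.Core2

open Polynomial Finset

namespace Vale.Agent.P123

variable {H : Type*} [NormedAddCommGroup H] [InnerProductSpace ℂ H]

lemma first_order (n : ℕ) (K : Set ℂ) (hKconv : Convex ℝ K) (u μ : ℂ) (hμK : μ ∈ K)
    (hmax : IsMaxOn (fun z : ℂ => (u * z ^ n).re) K μ) (κ : ℂ) (hκ : κ ∈ K) :
    ((n : ℝ) * (u * μ ^ (n - 1) * (κ - μ)).re) ≤ 0 := by
  have hd : HasDerivAt (fun z : ℂ => u * z ^ n) (u * ((n : ℂ) * μ ^ (n - 1))) μ :=
    (hasDerivAt_pow n μ).const_mul u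
  have hf : HasFDerivAt (fun z : ℂ => (u * z ^ n).re)
      (Complex.reCLM.comp ((ContinuousLinearMap.toSpanSingleton ℂ
        (u * ((n : ℂ) * μ ^ (n - 1)))).restrictScalars ℝ)) μ :=
    Complex.reCLM.hasFDerivAt.comp μ (hd.hasFDerivAt.restrictScalars ℝ)
  have hy : κ - μ ∈ posTangentConeAt K μ :=
    sub_mem_posTangentConeAt_of_segment_subset (hKconv.segment_subset hμK hκ)
  have := (IsMaxOn.localize hmax).hasFDerivWithinAt_nonpos hf.hasFDerivWithinAt hy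
  simp only [ContinuousLinearMap.comp_apply, ContinuousLinearMap.coe_restrictScalars',
    ContinuousLinearMap.toSpanSingleton_apply, Complex.reCLM_apply, smul_eq_mul] at this
  have e : (κ - μ) * (u * ((n : ℂ) * μ ^ (n - 1))) = ((n : ℝ) : ℂ) * (u * μ ^ (n - 1) * (κ - μ)) := by
    push_cast; ring
  rw [e, Complex.re_ofReal_mul] at this
  exact this


lemma exists_max_point {n : ℕ} (hn : 0 < n) {ω : ℂ} (hω : IsPrimitiveRoot ω n) (B : H →L[ℂ] H)
    (K : Set ℂ) (hKc : IsCompact K) (hKconv : Convex ℝ K)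
    (hK0 : n = 1 ∨ ∃ r > 0, Metric.closedBall (0 : ℂ) r ⊆ K)
    (hW : ∀ x : H, ‖x‖ = 1 → inner ℂ x (B x) ∈ K)
    (hrot : ∀ z ∈ K, ω * z ∈ K) (u : ℂ) (x : H) (hx : ‖x‖ = 1) :
    ∃ μ ∈ K, (u * inner ℂ x ((B ^ n) x)).re ≤ (u * μ ^ n).re := by
  have hne : K.Nonempty := ⟨_, hW x hx⟩
  by_cases hu : u = 0
  · obtain ⟨μ, hμ⟩ := hne
    exact ⟨μ, hμ, by simp [hu]⟩
  have hcont : Continuous (fun z : ℂ => (u * z ^ n).re) := by fun_prop
  obtain ⟨μ, hμK, hmax⟩ := hKc.exists_isMaxOn hne hcont.continuousOn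
  refine ⟨μ, hμK, core hn hω B K hW hrot μ u ?_ ?_ x hx⟩
  · rcases hK0 with h1 | ⟨r, hr, hball⟩
    · subst h1; simp
    · apply pow_ne_zero
      intro hμ0
      obtain ⟨v, hv⟩ := IsAlgClosed.exists_pow_nat_eq ((starRingEnd ℂ) u) hn
      have hv0 : v ≠ 0 := by
        intro h
        rw [h, zero_pow hn.ne'] at hv
        exact hu (by simpa using hv.symm)
      have hvn : 0 < ‖v‖ := norm_pos_iff.mpr hv0
      set z : ℂ := ((r / ‖v‖ : ℝ) : ℂ) * v with hz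
      have hzK : z ∈ K := by
        apply hball
        rw [mem_closedBall_zero_iff, hz, norm_mul, Complex.norm_real, Real.norm_eq_abs,
          abs_of_pos (div_pos hr hvn), div_mul_cancel₀ _ hvn.ne']
      have h1 := hmax hzK
      simp only [Set.mem_ofPred_eq] at h1
      rw [hμ0, zero_pow hn.ne', mul_zero, Complex.zero_re, hz, mul_pow, hv] at h1
      have e : u * (((r / ‖v‖ : ℝ) : ℂ) ^ n * (starRingEnd ℂ) u)
          = (((r / ‖v‖) ^ n * Complex.normSq u : ℝ) : ℂ) := by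
        rw [Complex.ofReal_mul, ← Complex.mul_conj]; push_cast; ring
      rw [e, Complex.ofReal_re] at h1
      have : 0 < (r / ‖v‖) ^ n * Complex.normSq u :=
        mul_pos (pow_pos (div_pos hr hvn) n) (Complex.normSq_pos.mpr hu)
      linarith
  · intro κ hκ
    have h := first_order n K hKconv u μ hμK hmax κ hκ
    have hn' : (0 : ℝ) < n := by exact_mod_cast hn
    by_contra hcon
    rw [not_le] at hcon
    have := mul_pos hn' hcon
    linarith

lemma numrange_bound {n : ℕ} (hn : 0 < n) {ω : ℂ} (hω : IsPrimitiveRoot ω n) (B : H →L[ℂ] H)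
    (K : Set ℂ) (hKc : IsCompact K) (hKconv : Convex ℝ K)
    (hK0 : n = 1 ∨ ∃ r > 0, Metric.closedBall (0 : ℂ) r ⊆ K)
    (hW : ∀ x : H, ‖x‖ = 1 → inner ℂ x (B x) ∈ K)
    (hrot : ∀ z ∈ K, ω * z ∈ K) (a c : ℂ) (M : ℝ) (hM : ∀ z ∈ K, ‖a * z ^ n + c‖ ≤ M)
    (x : H) (hx : ‖x‖ = 1) :
    ‖a * inner ℂ x ((B ^ n) x) + c‖ ≤ M := by
  set w : ℂ := a * inner ℂ x ((B ^ n) x) + c with hw
  by_cases hw0 : w = 0
  · rw [hw0, norm_zero]
    exact (norm_nonneg _).trans (hM _ (hW x hx))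
  have hwn : 0 < ‖w‖ := norm_pos_iff.mpr hw0
  set u' : ℂ := (starRingEnd ℂ) w / (‖w‖ : ℂ) with hu'
  have hu'n : ‖u'‖ = 1 := by
    rw [hu', norm_div, Complex.norm_conj, Complex.norm_real, norm_norm, div_self hwn.ne']
  have hu'w : u' * w = (‖w‖ : ℂ) := by
    rw [hu', div_mul_eq_mul_div, mul_comm, Complex.mul_conj, Complex.normSq_eq_norm_sq]
    push_cast
    field_simp
  obtain ⟨μ, hμK, hμ⟩ := exists_max_point hn hω B K hKc hKconv hK0 hW hrot (u' * a) x hx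
  have h1 : ‖w‖ = (u' * w).re := by rw [hu'w, Complex.ofReal_re]
  have h2 : (u' * w).re = (u' * a * inner ℂ x ((B ^ n) x)).re + (u' * c).re := by
    rw [hw, mul_add, Complex.add_re, mul_assoc]
  have h3 : (u' * a * μ ^ n).re + (u' * c).re = (u' * (a * μ ^ n + c)).re := by
    rw [mul_add, Complex.add_re, mul_assoc]
  have h4 : (u' * (a * μ ^ n + c)).re ≤ ‖a * μ ^ n + c‖ := by
    calc (u' * (a * μ ^ n + c)).re ≤ ‖u' * (a * μ ^ n + c)‖ := Complex.re_le_norm _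
      _ = ‖a * μ ^ n + c‖ := by rw [norm_mul, hu'n, one_mul]
  have h5 := hM μ hμK
  linarith

end Vale.Agent.P123
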