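import Mathlib

namespace Vale.Agent.P123

variable {H : Type*} [NormedAddCommGroup H] [InnerProductSpace ℂ H]

lemma quad_bound (T : H →L[ℂ] H) (M : ℝ)
    (hT : ∀ x : H, ‖x‖ = 1 → ‖inner ℂ x (T x)‖ ≤ M) (z : H) :
    ‖inner ℂ (T z) z‖ ≤ M * ‖z‖ ^ 2 := by
  by_cases hz : z = 0
  · simp [hz]
  · have hn : ‖z‖ ≠ 0 := norm_ne_zero_iff.mpr hz
    set e : H := ((‖z‖ : ℂ)⁻¹) • z with he
    have he1 : ‖e‖ = 1 := by
      rw [he, norm_smul, norm_inv, Complex.norm_real, norm_norm, inv_mul_cancel₀ hn]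
    have hze : z = (‖z‖ : ℂ) • e := by
      rw [he, smul_smul, mul_inv_cancel₀ (by exact_mod_cast hn), one_smul]
    have hin : inner ℂ z (T z) = ((‖z‖ : ℂ) ^ 2) * inner ℂ e (T e) := by
      conv_lhs => rw [hze]
      rw [map_smul, inner_smul_left, inner_smul_right, Complex.conj_ofReal]
      ring
    rw [norm_inner_symm, hin, norm_mul, norm_pow, Complex.norm_real, norm_norm, mul_comm]
    exact mul_le_mul_of_nonneg_right (hT e he1) (by positivity)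

lemma bilin_bound (T : H →L[ℂ] H) (M : ℝ)
    (hT : ∀ x : H, ‖x‖ = 1 → ‖inner ℂ x (T x)‖ ≤ M) (x y : H) :
    ‖inner ℂ (T x) y‖ ≤ M * (‖x‖ ^ 2 + ‖y‖ ^ 2) := by
  have hp := inner_map_polarization' (T : H →ₗ[ℂ] H) x y
  simp only [ContinuousLinearMap.coe_coe] at hp
  have q := quad_bound T M hT
  have p1 := parallelogram_law_with_norm ℂ x y
  have p2 := parallelogram_law_with_norm ℂ x (Complex.I • y)
  have hI : ‖Complex.I • y‖ = ‖y‖ := by rw [norm_smul, Complex.norm_I, one_mul]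
  rw [hI] at p2
  have b1 := q (x + y)
  have b2 := q (x - y)
  have b3 := q (x + Complex.I • y)
  have b4 := q (x - Complex.I • y)
  rw [hp, norm_div]
  have h4 : ‖(4 : ℂ)‖ = 4 := by simp
  rw [h4, div_le_iff₀ (by norm_num)]
  have t1 : ‖inner ℂ (T (x + y)) (x + y) - inner ℂ (T (x - y)) (x - y)
      - Complex.I * inner ℂ (T (x + Complex.I • y)) (x + Complex.I • y)
      + Complex.I * inner ℂ (T (x - Complex.I • y)) (x - Complex.I • y)‖
      ≤ ‖inner ℂ (T (x + y)) (x + y)‖ + ‖inner ℂ (T (x - y)) (x - y)‖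
      + ‖inner ℂ (T (x + Complex.I • y)) (x + Complex.I • y)‖
      + ‖inner ℂ (T (x - Complex.I • y)) (x - Complex.I • y)‖ := by
    refine (norm_add_le _ _).trans ?_
    rw [norm_mul, Complex.norm_I, one_mul]
    gcongr
    refine (norm_sub_le _ _).trans ?_
    rw [norm_mul, Complex.norm_I, one_mul]
    gcongr
    exact norm_sub_le _ _
  have e1 : M * ‖x + y‖ ^ 2 + M * ‖x - y‖ ^ 2 = M * (2 * (‖x‖ ^ 2 + ‖y‖ ^ 2)) := by
    rw [← p1]; ring
  have e2 : M * ‖x + Complex.I • y‖ ^ 2 + M * ‖x - Complex.I • y‖ ^ 2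
      = M * (2 * (‖x‖ ^ 2 + ‖y‖ ^ 2)) := by
    rw [← p2]; ring
  linarith [t1, b1, b2, b3, b4, e1, e2]

lemma norm_le_two_mul (T : H →L[ℂ] H) (M : ℝ) (hM0 : 0 ≤ M)
    (hT : ∀ x : H, ‖x‖ = 1 → ‖inner ℂ x (T x)‖ ≤ M) : ‖T‖ ≤ 2 * M := by
  refine ContinuousLinearMap.opNorm_le_bound T (by positivity) fun x => ?_
  by_cases hTx : T x = 0
  · rw [hTx, norm_zero]; positivity
  have hx : x ≠ 0 := by
    intro h; apply hTx; rw [h, map_zero]
  have hxn : 0 < ‖x‖ := norm_pos_iff.mpr hx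
  have hTn : 0 < ‖T x‖ := norm_pos_iff.mpr hTx
  set y : H := ((‖x‖ / ‖T x‖ : ℝ) : ℂ) • T x with hy
  have hyn : ‖y‖ = ‖x‖ := by
    rw [hy, norm_smul, Complex.norm_real, Real.norm_eq_abs, abs_of_pos (div_pos hxn hTn),
      div_mul_cancel₀ _ hTn.ne']
  have hb := bilin_bound T M hT x y
  have hin : inner ℂ (T x) y = ((‖x‖ * ‖T x‖ : ℝ) : ℂ) := by
    rw [hy, inner_smul_right, inner_self_eq_norm_sq_to_K]
    have hTc : (‖T x‖ : ℂ) ≠ 0 := by exact_mod_cast hTn.ne'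
    push_cast
    field_simp
    rfl
  rw [hin, Complex.norm_real, Real.norm_eq_abs, abs_of_pos (mul_pos hxn hTn), hyn] at hb
  have : ‖x‖ * ‖T x‖ ≤ ‖x‖ * (2 * M * ‖x‖) := by nlinarith
  exact le_of_mul_le_mul_left this hxn

end Vale.Agent.P123
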