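import Vale.Agent.P123.Geo
import Vale.Agent.P123.NumRad

open Polynomial Finset
open scoped Pointwise

namespace Vale.Agent.P123

variable {H : Type*} [NormedAddCommGroup H] [InnerProductSpace ℂ H]

lemma zero_mem_of_rot {n : ℕ} (hn : 1 < n) {ω : ℂ} (hω : IsPrimitiveRoot ω n) (K : Set ℂ)
    (hKconv : Convex ℝ K) (hrot : ∀ z ∈ K, ω * z ∈ K) (κ : ℂ) (hκ : κ ∈ K) : (0 : ℂ) ∈ K := by
  have hrotpow : ∀ j : ℕ, ω ^ j * κ ∈ K := by
    intro j
    induction j with
    | zero => simpa using hκ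
    | succ j ih => rw [pow_succ', mul_assoc]; exact hrot _ ih
  have hn0 : (0 : ℝ) < n := by exact_mod_cast (by omega : 0 < n)
  have := hKconv.sum_mem (t := range n) (w := fun _ => (1 / n : ℝ)) (z := fun j => ω ^ j * κ)
    (fun _ _ => by positivity) (by simp [hn0.ne']) (fun j _ => hrotpow j)
  have hz : ∑ j ∈ range n, (1 / n : ℝ) • (ω ^ j * κ) = 0 := by
    rw [← Finset.smul_sum, ← Finset.sum_mul, hω.geom_sum_eq_zero hn, zero_mul, smul_zero]
  rwa [hz] at this

/-- centred version, arbitrary convex rotation invariant `K` -/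
lemma numrange_bound_general {n : ℕ} (hn : 0 < n) {ω : ℂ} (hω : IsPrimitiveRoot ω n)
    (B : H →L[ℂ] H) (K : Set ℂ) (hKconv : Convex ℝ K)
    (hW : ∀ x : H, ‖x‖ = 1 → inner ℂ x (B x) ∈ K)
    (hrot : ∀ z ∈ K, ω * z ∈ K) (a c : ℂ) (M : ℝ) (hM : ∀ z ∈ K, ‖a * z ^ n + c‖ ≤ M)
    (x : H) (hx : ‖x‖ = 1) :
    ‖a * inner ℂ x ((B ^ n) x) + c‖ ≤ M := by
  have hωn : ω ^ n = 1 := hω.pow_eq_one
  have hnorm : ‖ω‖ = 1 := Complex.norm_eq_one_of_pow_eq_one hωn hn.ne'
  set S : Set ℂ := K ∩ Metric.closedBall 0 ‖B‖ with hS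
  have hSconv : Convex ℝ S := hKconv.inter (convex_closedBall 0 _)
  have hSbdd : Bornology.IsBounded S := Metric.isBounded_closedBall.subset Set.inter_subset_right
  have hScomp : IsCompact (closure S) :=
    Metric.isCompact_of_isClosed_isBounded isClosed_closure hSbdd.closure
  have hWS : ∀ y : H, ‖y‖ = 1 → inner ℂ y (B y) ∈ S := by
    intro y hy
    refine ⟨hW y hy, ?_⟩
    rw [mem_closedBall_zero_iff]
    calc ‖inner ℂ y (B y)‖ ≤ ‖y‖ * ‖B y‖ := norm_inner_le_norm _ _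
      _ ≤ ‖y‖ * (‖B‖ * ‖y‖) := by gcongr; exact B.le_opNorm y
      _ = ‖B‖ := by rw [hy]; ring
  have hSrot : ∀ z ∈ S, ω * z ∈ S := by
    intro z hz
    refine ⟨hrot z hz.1, ?_⟩
    have := hz.2
    rw [mem_closedBall_zero_iff] at this ⊢
    rwa [norm_mul, hnorm, one_mul]
  have hcSrot : ∀ z ∈ closure S, ω * z ∈ closure S := by
    intro z hz
    exact map_mem_closure (continuous_const.mul continuous_id) hz hSrot
  have hgcont : Continuous (fun z : ℂ => ‖a * z ^ n + c‖) := by fun_prop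
  have hcSM : ∀ z ∈ closure S, ‖a * z ^ n + c‖ ≤ M := by
    intro z hz
    have hcl : IsClosed {z : ℂ | ‖a * z ^ n + c‖ ≤ M} := isClosed_le hgcont continuous_const
    exact closure_minimal (fun w hw => hM w hw.1) hcl hz
  refine le_of_forall_pos_le_add fun δ hδ => ?_
  have hopen : IsOpen {z : ℂ | ‖a * z ^ n + c‖ < M + δ} := isOpen_lt hgcont continuous_const
  obtain ⟨ε, hε, hsub⟩ := hScomp.exists_cthickening_subset_open hopen
    (fun z hz => lt_of_le_of_lt (hcSM z hz) (by linarith))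
  rw [← hScomp.add_closedBall_zero hε.le] at hsub
  set Kε : Set ℂ := closure S + Metric.closedBall 0 ε with hKε
  have hKεc : IsCompact Kε := hScomp.add (isCompact_closedBall 0 ε)
  have hKεconv : Convex ℝ Kε := hSconv.closure.add (convex_closedBall 0 ε)
  have hsubKε : closure S ⊆ Kε := by
    intro z hz
    exact ⟨z, hz, 0, by simp [hε.le], by simp⟩
  have hKεrot : ∀ z ∈ Kε, ω * z ∈ Kε := by
    rintro z ⟨s, hs, b, hb, rfl⟩
    refine ⟨ω * s, hcSrot s hs, ω * b, ?_, by ring⟩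
    rw [mem_closedBall_zero_iff] at hb ⊢
    rwa [norm_mul, hnorm, one_mul]
  have hK0 : n = 1 ∨ ∃ r > 0, Metric.closedBall (0 : ℂ) r ⊆ Kε := by
    by_cases h1 : n = 1
    · exact Or.inl h1
    · right
      refine ⟨ε, hε, ?_⟩
      have h0 : (0 : ℂ) ∈ S :=
        zero_mem_of_rot (by omega) hω S hSconv hSrot _ (hWS x hx)
      intro b hb
      exact ⟨0, subset_closure h0, b, hb, by simp⟩
  exact numrange_bound hn hω B Kε hKεc hKεconv hK0
    (fun y hy => hsubKε (subset_closure (hWS y hy))) hKεrot a c (M + δ)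
    (fun z hz => (hsub hz).le) x hx

end Vale.Agent.P123
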