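import Mathlib

namespace Vale.Agent.P123

variable {H : Type*} [NormedAddCommGroup H] [InnerProductSpace ℂ H]

lemma exists_phase (b d : ℂ) : ∃ l : ℂ, ‖l‖ = 1 ∧ ((starRingEnd ℂ) l * b + l * d).im = 0 := by
  set e : ℂ := b - (starRingEnd ℂ) d with he
  by_cases h : e = 0
  · refine ⟨1, by simp, ?_⟩
    have : b = (starRingEnd ℂ) d := sub_eq_zero.mp h
    simp [this]
  · have hn : 0 < ‖e‖ := norm_pos_iff.mpr h
    refine ⟨e / (‖e‖ : ℂ), ?_, ?_⟩
    · rw [norm_div, Complex.norm_real, norm_norm, div_self hn.ne']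
    · set l : ℂ := e / (‖e‖ : ℂ) with hl
      have h1 : (l * d).im = -((starRingEnd ℂ) l * (starRingEnd ℂ) d).im := by
        rw [← map_mul, Complex.conj_im, neg_neg]
      have h2 : (starRingEnd ℂ) l * e = (‖e‖ : ℂ) := by
        rw [hl, map_div₀, Complex.conj_ofReal, div_mul_eq_mul_div, mul_comm, Complex.mul_conj,
          Complex.normSq_eq_norm_sq]
        have : (‖e‖ : ℂ) ≠ 0 := by exact_mod_cast hn.ne'
        push_cast
        field_simp
      have h3 : ((starRingEnd ℂ) l * b).im - ((starRingEnd ℂ) l * (starRingEnd ℂ) d).im = 0 := by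
        rw [← Complex.sub_im, ← mul_sub, ← he, h2, Complex.ofReal_im]
      rw [Complex.add_im, h1]
      linarith

/-- normalized Toeplitz-Hausdorff step -/
lemma th_step (T : H →L[ℂ] H) (x y : H) (hx : ‖x‖ = 1) (hy : ‖y‖ = 1)
    (hx0 : inner ℂ x (T x) = 0) (hy1 : inner ℂ y (T y) = 1)
    (t : ℝ) (ht : t ∈ Set.Icc (0 : ℝ) 1) :
    ∃ z : H, ‖z‖ = 1 ∧ inner ℂ z (T z) = t := by
  obtain ⟨l, hl1, hlim⟩ := exists_phase (inner ℂ x (T y)) (inner ℂ y (T x))
  set m : ℝ := ((starRingEnd ℂ) l * inner ℂ x (T y) + l * inner ℂ y (T x)).re with hm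
  have hmc : (m : ℂ) = (starRingEnd ℂ) l * inner ℂ x (T y) + l * inner ℂ y (T x) := by
    apply Complex.ext
    · simp [hm]
    · simp [hlim]
  set z : ℝ → H := fun s => (((1 - s : ℝ) : ℂ) * l) • x + ((s : ℝ) : ℂ) • y with hz
  have hq : ∀ s : ℝ, inner ℂ (z s) (T (z s)) = ((s ^ 2 + (1 - s) * s * m : ℝ) : ℂ) := by
    intro s
    simp only [hz, map_add, map_smul, inner_add_left, inner_add_right, inner_smul_left,
      inner_smul_right, hx0, hy1, map_mul, Complex.conj_ofReal]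
    push_cast
    rw [hmc]
    ring
  have hxne : x ≠ 0 := by
    intro h; rw [h, norm_zero] at hx; exact zero_ne_one hx
  have hl0 : l ≠ 0 := by
    intro h; rw [h] at hl1; simp at hl1
  have hz0 : ∀ s : ℝ, z s ≠ 0 := by
    intro s hs
    by_cases hs0 : s = 0
    · have : z s = l • x := by simp [hz, hs0]
      rw [this] at hs
      rcases smul_eq_zero.mp hs with h | h
      · exact hl0 h
      · exact hxne h
    · have hsc : (s : ℂ) ≠ 0 := by exact_mod_cast hs0
      have hyx : y = (-(((1 - s : ℝ) : ℂ) * l) / (s : ℂ)) • x := by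
        have h1 : ((s : ℝ) : ℂ) • y = -((((1 - s : ℝ) : ℂ) * l) • x) := by
          rw [eq_neg_iff_add_eq_zero, add_comm]; exact hs
        calc y = ((s : ℂ)⁻¹ * (s : ℂ)) • y := by rw [inv_mul_cancel₀ hsc, one_smul]
          _ = (s : ℂ)⁻¹ • (((s : ℝ) : ℂ) • y) := by rw [smul_smul]
          _ = (s : ℂ)⁻¹ • (-((((1 - s : ℝ) : ℂ) * l) • x)) := by rw [h1]
          _ = (-(((1 - s : ℝ) : ℂ) * l) / (s : ℂ)) • x := by
            rw [← neg_smul, smul_smul]; congr 1; field_simp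
      have : inner ℂ y (T y) = 0 := by
        rw [hyx, map_smul, inner_smul_left, inner_smul_right, hx0, mul_zero, mul_zero]
      rw [this] at hy1
      exact zero_ne_one hy1
  set F : ℝ → ℝ := fun s => (s ^ 2 + (1 - s) * s * m) / ‖z s‖ ^ 2 with hF
  have hzc : Continuous z := by
    rw [hz]
    fun_prop
  have hFc : Continuous F := by
    rw [hF]
    refine Continuous.div (by fun_prop) (by fun_prop) fun s => ?_
    exact pow_ne_zero 2 (norm_ne_zero_iff.mpr (hz0 s))
  have hF0 : F 0 = 0 := by simp [hF]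
  have hF1 : F 1 = 1 := by simp [hF, hz, hy]
  have hivt := intermediate_value_Icc (zero_le_one) hFc.continuousOn
  rw [hF0, hF1] at hivt
  obtain ⟨s, -, hs⟩ := hivt ht
  have hn : ‖z s‖ ≠ 0 := norm_ne_zero_iff.mpr (hz0 s)
  refine ⟨((‖z s‖ : ℂ)⁻¹) • z s, ?_, ?_⟩
  · rw [norm_smul, norm_inv, Complex.norm_real, norm_norm, inv_mul_cancel₀ hn]
  · rw [map_smul, inner_smul_left, inner_smul_right, hq s, ← hs, hF, map_inv₀,
      Complex.conj_ofReal]
    have : (‖z s‖ : ℂ) ≠ 0 := by exact_mod_cast hn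
    push_cast
    field_simp

/-- **Toeplitz-Hausdorff**: the numerical range is convex. -/
theorem convex_numRange (A : H →L[ℂ] H) :
    Convex ℝ {w : ℂ | ∃ x : H, ‖x‖ = 1 ∧ inner ℂ x (A x) = w} := by
  rw [convex_iff_segment_subset]
  rintro α ⟨x, hx, hxα⟩ β ⟨y, hy, hyβ⟩ w hw
  by_cases hαβ : α = β
  · subst hαβ
    rw [segment_same] at hw
    rw [Set.mem_singleton_iff.mp hw]
    exact ⟨x, hx, hxα⟩
  · have hγ : β - α ≠ 0 := sub_ne_zero.mpr (Ne.symm hαβ)
    rw [segment_eq_image_lineMap] at hw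
    obtain ⟨t, ht, rfl⟩ := hw
    set T : H →L[ℂ] H := (β - α)⁻¹ • (A - α • (1 : H →L[ℂ] H)) with hT
    have hTq : ∀ v : H, ‖v‖ = 1 → inner ℂ v (T v) = (β - α)⁻¹ * (inner ℂ v (A v) - α) := by
      intro v hv
      simp [hT, hv]
    obtain ⟨z, hz, hzt⟩ := th_step T x y hx hy
      (by rw [hTq x hx, hxα, sub_self, mul_zero])
      (by rw [hTq y hy, hyβ, inv_mul_cancel₀ hγ]) t ht
    refine ⟨z, hz, ?_⟩
    rw [hTq z hz] at hzt
    have : inner ℂ z (A z) = α + (t : ℂ) * (β - α) := by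
      field_simp at hzt
      linear_combination hzt
    rw [this, AffineMap.lineMap_apply]
    simp
    ring

end Vale.Agent.P123
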